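import Vale.Agent.P237.Quant.TailData.N25.tailN25N1Part0
import Vale.Agent.P237.Quant.TailData.N25.tailN25N1Part1
import Vale.Agent.P237.Quant.TailData.N25.tailN25N1Part2
import Vale.Agent.P237.Quant.TailData.N25.tailN25N1Part3

/-!
Tail calibration tailN25N1 in dimension 25. The check. Generated data, checked by the kernel.
-/

set_option maxRecDepth 100000
set_option linter.all false

namespace Vale.Agent.P237.Quant.TailData

open TailCert


/-- The calibration. -/
noncomputable def tailN25N1 : Cfg :=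
  tailN25N1Base.withIvals (List.flatten [tailN25N1L0, tailN25N1L1, tailN25N1L2, tailN25N1L3, tailN25N1L4, tailN25N1L5, tailN25N1L6, tailN25N1L7, tailN25N1L8, tailN25N1L9, tailN25N1L10, tailN25N1L11, tailN25N1L12, tailN25N1L13])

theorem tailN25N1_parts : [tailN25N1L0, tailN25N1L1, tailN25N1L2, tailN25N1L3, tailN25N1L4, tailN25N1L5, tailN25N1L6, tailN25N1L7, tailN25N1L8, tailN25N1L9, tailN25N1L10, tailN25N1L11, tailN25N1L12, tailN25N1L13].Forall fun l => tailN25N1Base.partUsed tailN25N1Used l = true := by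
  simp only [List.forall_cons, List.Forall]
  exact ⟨tailN25N1L0_ok, tailN25N1L1_ok, tailN25N1L2_ok, tailN25N1L3_ok, tailN25N1L4_ok, tailN25N1L5_ok, tailN25N1L6_ok, tailN25N1L7_ok, tailN25N1L8_ok, tailN25N1L9_ok, tailN25N1L10_ok, tailN25N1L11_ok, tailN25N1L12_ok, tailN25N1L13_ok⟩

theorem tailN25N1_check : tailN25N1.check = true :=
  Cfg.check_of_parts (by decide +kernel) tailN25N1_parts

end Vale.Agent.P237.Quant.TailData
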