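import Vale.Agent.P237.Quant.TailData.N25.tailN25P0Part0
import Vale.Agent.P237.Quant.TailData.N25.tailN25P0Part1
import Vale.Agent.P237.Quant.TailData.N25.tailN25P0Part2

/-!
Tail calibration tailN25P0 in dimension 25. The check. Generated data, checked by the kernel.
-/

set_option maxRecDepth 100000
set_option linter.all false

namespace Vale.Agent.P237.Quant.TailData

open TailCert


/-- The calibration. -/
noncomputable def tailN25P0 : Cfg :=
  tailN25P0Base.withIvals (List.flatten [tailN25P0L0, tailN25P0L1, tailN25P0L2, tailN25P0L3, tailN25P0L4, tailN25P0L5, tailN25P0L6, tailN25P0L7, tailN25P0L8, tailN25P0L9, tailN25P0L10])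

theorem tailN25P0_parts : [tailN25P0L0, tailN25P0L1, tailN25P0L2, tailN25P0L3, tailN25P0L4, tailN25P0L5, tailN25P0L6, tailN25P0L7, tailN25P0L8, tailN25P0L9, tailN25P0L10].Forall fun l => tailN25P0Base.partUsed tailN25P0Used l = true := by
  simp only [List.forall_cons, List.Forall]
  exact ⟨tailN25P0L0_ok, tailN25P0L1_ok, tailN25P0L2_ok, tailN25P0L3_ok, tailN25P0L4_ok, tailN25P0L5_ok, tailN25P0L6_ok, tailN25P0L7_ok, tailN25P0L8_ok, tailN25P0L9_ok, tailN25P0L10_ok⟩

theorem tailN25P0_check : tailN25P0.check = true :=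
  Cfg.check_of_parts (by decide +kernel) tailN25P0_parts

end Vale.Agent.P237.Quant.TailData
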