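import Vale.Agent.P237.Quant.TailPartsLink
import Vale.Agent.P237.Quant.RowTables
import Vale.Agent.P237.Quant.EnvelopeTableData.N16
import Vale.Agent.P237.Quant.TailData.N25.tailN25P0
import Vale.Agent.P237.Quant.TailData.N25.tailN25P1
import Vale.Agent.P237.Quant.TailData.N25.tailN25P2
import Vale.Agent.P237.Quant.TailData.N25.tailN25P3
import Vale.Agent.P237.Quant.TailData.N25.tailN25N0
import Vale.Agent.P237.Quant.TailData.N25.tailN25N1

/-!
The tail inequalities of the rows of both sides in dimension 25. Generated.
-/

namespace Vale.Agent.P237.Quant

open TailCert TailData

/-- The tail inequalities of `negRow14` in dimension 25. -/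
theorem negRow14_tailAt25 : negRow14.TailAt 24 := by
  intro P hP
  simp only [negRow14, binsOf, List.mem_cons, List.not_mem_nil, or_false] at hP
  rcases hP with rfl | rfl
  · exact tailBin_negParts tailN25N0_check tailN25N0_parts envTable25_check (by decide +kernel)
  · exact tailBin_negParts tailN25N1_check tailN25N1_parts envTable25_check (by decide +kernel)

/-- The tail inequalities of `posRow25` in dimension 25. -/
theorem posRow25_tailAt25 : posRow25.TailAt 24 := by
  intro P hP
  simp only [posRow25, posRowA, posCuts14, posCuts16, binsOf, List.mem_cons, List.not_mem_nil, or_false] at hP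
  rcases hP with rfl | rfl | rfl | rfl
  · exact tailBin_posParts tailN25P0_check tailN25P0_parts envTable25_check (by decide +kernel)
  · exact tailBin_posParts tailN25P1_check tailN25P1_parts envTable25_check (by decide +kernel)
  · exact tailBin_posParts tailN25P2_check tailN25P2_parts envTable25_check (by decide +kernel)
  · exact tailBin_posParts tailN25P3_check tailN25P3_parts envTable25_check (by decide +kernel)

end Vale.Agent.P237.Quant
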